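import Vale.Agent.P281.H723.KD.BK

/-! P281, theorem KL: the Bochner inequality with an additional smooth metric. -/

open scoped Manifold ContDiff ComplexOrder Topology Matrix
open Filter Vale.Agent.P272.K Vale.Agent.P272.K.AMP Vale.Agent.P299
open Vale.Agent.P299.H954 Vale.Agent.P299.H882
open Vale.Agent.P299.H882 (J xi qf)
open Vale.Agent.P272.K.INT (IsClosedForm)

set_option linter.all false

noncomputable section

namespace Vale.Agent.P281.H723.KL

open Vale.Agent.P281.H713.KD Vale.Agent.P281.H723.KD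
open Vale.Agent.P281.H167.GM (phiD)

section defs

variable {n M : ℕ} {X : Type} [TopologicalSpace X] [ChartedSpace (Cm n) X]

/-- `IsDecPair` for tensors with values in a line bundle with a smooth metric of curvature `- L`:
`N₀ g`, `N₁ g` contain the additional factor `exp (-Ψ)`, `i∂∂̄Ψ = L`. -/
structure IsDecPairL (Dv : Fin M → Set X) (r : Fin M → X → ℝ) (χ : D.FormM n X) (p μ : ℕ)
    (K : Fin M → ℕ) (L : D.FormM n X) (N₀ N₁ : D.FormM n X → X → ℝ) : Prop where
  closed : IsClosedForm L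
  smooth : ∀ g, IsKahler g → SmoothFn (n := n) (N₀ g) ∧ SmoothFn (n := n) (N₁ g)
  nonneg : ∀ g x, IsKahler g → 0 ≤ N₀ g x ∧ 0 ≤ N₁ g x
  pos : ∀ g x, IsKahler g → (0 < N₀ g x ↔ 0 < N₀ χ x) ∧ (0 < N₁ g x ↔ 0 < N₁ χ x)
  hol : IsHolNorm (n := n) fun x => N₀ χ x + N₁ χ x
  ne : ∀ i, K i ≠ 0 → ∀ x ∈ Dv i, ¬ ∀ᶠ y in 𝓝 x, y ∈ Dv i → N₀ χ y + N₁ χ y = 0
  good : ∃ 𝒪 : Set X, Dense 𝒪 ∧ ∀ a : ℝ, 0 < a → ∃ C : ℝ, ∀ x ∈ 𝒪, (∀ i, 0 < r i x) ∧
    ∃ (e : Chart n X) (b : Cm n → Matrix (Fin p) (Fin n) ℂ) (c₀ c₁ : Cm n → ℂ) (Ψ : Cm n → ℝ),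
      At e x ∧ (∀ j l, AnalyticAt ℂ (fun z => b z j l) (e x)) ∧
      AnalyticAt ℂ c₀ (e x) ∧ AnalyticAt ℂ c₁ (e x) ∧ ContDiffAt ℝ ∞ Ψ (e x) ∧
      cHess Ψ (e x) = L e (e x) ∧
      (∀ g, IsKahler g → ∀ᶠ z in 𝓝 (e x),
        N₀ g (e.symm z) = ‖c₀ z‖ ^ 2 * Real.exp (-Ψ z) * (∏ i, r i (e.symm z) ^ K i) *
          gramD (b z) (g e z) ^ μ ∧
        N₁ g (e.symm z) = ‖c₁ z‖ ^ 2 * Real.exp (-Ψ z) * (∏ i, r i (e.symm z) ^ K i) *
          gramD (b z) (g e z) ^ μ) ∧
      (a ≤ N₀ χ x + N₁ χ x → ∀ i, K i ≠ 0 → ∃ l : Fin p → ℂ,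
        qf (χ e (e x)) (fun k => xi (fun y => Real.log (r i y)) e (e x) k -
          ∑ j, l j * b (e x) j k) ≤ C)

end defs

/-- **Block BK** for theorem KL. -/
def BochPartL : Prop := ∀ (n M : ℕ) (X : Type) [TopologicalSpace X] [T2Space X] [CompactSpace X]
  [ConnectedSpace X] [ChartedSpace (Cm n) X] [IsManifold 𝓘(ℂ, Cm n) ω X]
  (χ : D.FormM n X) (_ : IsKahler χ) (φ : Chart n X → Cm n → ℝ) (_ : IsCanonicalMetric φ)
  (m : ℕ) (_ : 0 < m) (ρ : X → ℝ) (_ : SmoothFn (n := n) ρ) (_ : ∀ x, 0 ≤ ρ x)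
  (Dv : Fin M → Set X) (r : Fin M → X → ℝ) (R : Fin M → D.FormM n X)
  (_ : IsBd Dv r R) (dl : Fin M → ℝ) (_ : ∀ i, 0 ≤ dl i) (C : ℝ) (_ : 0 ≤ C)
  (_ : CurvKGe φ m ρ dl R C χ) (p μ : ℕ) (K : Fin M → ℕ) (_ : ∀ i, (K i : ℝ) ≤ μ * dl i)
  (L : D.FormM n X) (N₀ N₁ : D.FormM n X → X → ℝ) (_ : IsDecPairL Dv r χ p μ K L N₀ N₁),
  ∃ C₂ : ℝ, 0 ≤ C₂ ∧ ∀ a : ℝ, 0 < a →
  ∃ C' : ℝ, 0 ≤ C' ∧ ∀ (β : X → ℝ), Continuous β → (∀ x, 0 ≤ β x) →
    (∀ x, N₀ χ x + N₁ χ x < a → 1 ≤ β x) → ∀ δ ε : ℝ, 0 < δ → 0 < ε → ε ≤ 1 →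
    ∀ (g : D.FormM n X) (c : ℝ), IsKahler g →
      (∀ e x, At e x → Real.log (g e (e x)).det.re = phiK φ m ρ δ dl r ε e (e x) + c) →
      ∀ N : D.FormM n X → X → ℝ, N = N₀ ∨ N = N₁ →
      BochF g (fun x => μ * (trX g (curvK φ m ρ δ dl R) x + C * (δ / (ρ x + δ)) * trX g χ x) +
        C' * ∑ i, ε / (r i x + ε) * trX g χ x +
        β x * (∑ i, if K i = 0 then 0 else K i * (trX g (dF (r i) (R i) ε) x + C₂ * trX g χ x)) +
        trX g L x)
        (fun x => N g x * ∏ i, (r i x + ε)⁻¹ ^ K i)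

section loc

variable {n M p : ℕ} {X : Type} [TopologicalSpace X] [ChartedSpace (Cm n) X]
  {Dv : Fin M → Set X} {r : Fin M → X → ℝ} {R : Fin M → D.FormM n X} {e : Chart n X} {x : X}

/-- the local form of `S` -/
theorem cHess_log_SL (hBd : IsBd Dv r R) (hrs : ∀ i, SmoothFn (n := n) (r i))
    (hx : At e x) (hr : ∀ i, 0 < r i x) {ε : ℝ} (hε : 0 < ε) {g : D.FormM n X} (hg : IsKahler g)
    {K : Fin M → ℕ} {μ : ℕ} {c : Cm n → ℂ} {b : Cm n → Matrix (Fin p) (Fin n) ℂ}
    (hc : AnalyticAt ℂ c (e x)) (hb : ∀ j l, AnalyticAt ℂ (fun z => b z j l) (e x))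
    {L : D.FormM n X} {Ψ : Cm n → ℝ} (hΨ : ContDiffAt ℝ ∞ Ψ (e x))
    (hL : cHess Ψ (e x) = L e (e x))
    {S : X → ℝ} (hS : SmoothFn (n := n) S) (hS0 : 0 < S x)
    (hloc : ∀ᶠ z in 𝓝 (e x), S (e.symm z) = ‖c z‖ ^ 2 * Real.exp (-Ψ z) *
      (∏ i, r i (e.symm z) ^ K i) * gramD (b z) (g e z) ^ μ *
      ∏ i, (r i (e.symm z) + ε)⁻¹ ^ K i) :
    (μ ≠ 0 → (gm (b (e x)) (g e (e x))).det ≠ 0) ∧
    μ * (trb (b (e x)) (g e (e x)) (D.ric g e (e x))).re -
        ∑ i, K i * trE g (dF (r i) (R i) ε) e (e x) - trE g L e (e x) ≤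
      ((g e (e x))⁻¹ * cHess (fun z => Real.log (S (e.symm z))) (e x)).trace.re := by
  have hgP := hg.posDef e x hx
  set f : Cm n → ℝ := fun z => S (e.symm z) with hf
  have hfx : f (e x) = S x := by simp only [hf]; rw [hx.left_inv]
  have hf0 : 0 < f (e x) := by rw [hfx]; exact hS0
  have hfne : ∀ᶠ z in 𝓝 (e x), f z ≠ 0 :=
    (hS e x hx).continuousAt.eventually_ne hf0.ne'
  -- the four factors
  have hfac : ∀ᶠ z in 𝓝 (e x), ‖c z‖ ^ 2 ≠ 0 ∧ (∀ i, r i (e.symm z) ^ K i ≠ 0) ∧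
      gramD (b z) (g e z) ^ μ ≠ 0 ∧ (∀ i, (r i (e.symm z) + ε)⁻¹ ^ K i ≠ 0) := by
    filter_upwards [hfne, hloc] with z h1 h2
    have h3 : f z = _ := h2
    rw [h3] at h1
    have h4 := left_ne_zero_of_mul h1
    have h5 := right_ne_zero_of_mul h1
    have h6 := left_ne_zero_of_mul h4
    exact ⟨left_ne_zero_of_mul (left_ne_zero_of_mul h6), fun i => Finset.prod_ne_zero_iff.1
      (right_ne_zero_of_mul h6) i (Finset.mem_univ i), right_ne_zero_of_mul h4,
      fun i => Finset.prod_ne_zero_iff.1 h5 i (Finset.mem_univ i)⟩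
  have hlog : (fun z => Real.log (f z)) =ᶠ[𝓝 (e x)] fun z => ((Real.log (‖c z‖ ^ 2) - Ψ z) +
      ∑ i, (K i : ℝ) * (Real.log (r i (e.symm z)) - Real.log (r i (e.symm z) + ε))) +
        (μ : ℝ) * Real.log (gramD (b z) (g e z)) := by
    filter_upwards [hfac, hloc] with z h1 h2
    obtain ⟨a1, a2, a3, a4⟩ := h1
    have h3 : f z = _ := h2
    have a0 : ‖c z‖ ^ 2 * Real.exp (-Ψ z) ≠ 0 := mul_ne_zero a1 (Real.exp_pos _).ne'
    rw [h3, Real.log_mul (mul_ne_zero (mul_ne_zero a0 (Finset.prod_ne_zero_iff.2 fun i _ => a2 i))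
      a3) (Finset.prod_ne_zero_iff.2 fun i _ => a4 i), Real.log_mul (mul_ne_zero a0
      (Finset.prod_ne_zero_iff.2 fun i _ => a2 i)) a3, Real.log_mul a0
      (Finset.prod_ne_zero_iff.2 fun i _ => a2 i), Real.log_mul a1 (Real.exp_pos _).ne',
      Real.log_exp, Real.log_prod fun i _ => a2 i,
      Real.log_prod fun i _ => a4 i, Real.log_pow (gramD (b z) (g e z)) μ]
    have e1 : ∑ i, Real.log (r i (e.symm z) ^ K i) + ∑ i, Real.log ((r i (e.symm z) + ε)⁻¹ ^ K i) =
        ∑ i, (K i : ℝ) * (Real.log (r i (e.symm z)) - Real.log (r i (e.symm z) + ε)) := by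
      rw [← Finset.sum_add_distrib]
      refine Finset.sum_congr rfl fun i _ => ?_
      rw [Real.log_pow, Real.log_pow, Real.log_inv]
      ring
    linarith
  have hc0 : c (e x) ≠ 0 := by
    have := hfac.self_of_nhds.1
    intro h0
    rw [h0] at this
    simp at this
  have hcC : ContDiffAt ℂ ω c (e x) := hc.contDiffAt
  have hc2 : ContDiffAt ℝ 2 (fun z => Real.log (‖c z‖ ^ 2)) (e x) :=
    (((hcC.restrict_scalars ℝ).of_le (by simp : (2 : WithTop ℕ∞) ≤ ω)).norm_sq ℝ).log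
      (by positivity)
  have hΨ2 : ContDiffAt ℝ 2 Ψ (e x) := hΨ.of_le (by norm_cast)
  have hcc2 : ContDiffAt ℝ 2 (fun z => Real.log (‖c z‖ ^ 2) - Ψ z) (e x) := hc2.sub hΨ2
  have hccH : cHess (fun z => Real.log (‖c z‖ ^ 2) - Ψ z) (e x) = -L e (e x) := by
    rw [C2.cHess_sub hc2 hΨ2, cHess_log_norm_sq hcC hc0, zero_sub, hL]
  have htrL : ((g e (e x))⁻¹ * (-L e (e x))).trace.re = -trE g L e (e x) := by
    rw [Matrix.mul_neg, Matrix.trace_neg, Complex.neg_re]
    rfl
  have hrε : ∀ i, ContDiffAt ℝ 2 (fun z => Real.log (r i (e.symm z) + ε)) (e x) := fun i => by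
    refine (((hrs i e x hx).of_le (by norm_cast)).add contDiffAt_const).log ?_
    rw [hx.left_inv]
    have := hr i
    positivity
  have hrl : ∀ i, ContDiffAt ℝ 2 (fun z => Real.log (r i (e.symm z))) (e x) := fun i =>
    (contDiffAt_log_r hrs hx i (hr i)).of_le (by norm_cast)
  have hsum : ∀ i ∈ (Finset.univ : Finset (Fin M)), ContDiffAt ℝ 2 (fun z => (K i : ℝ) *
      (Real.log (r i (e.symm z)) - Real.log (r i (e.symm z) + ε))) (e x) := fun i _ =>
    contDiffAt_const.mul ((hrl i).sub (hrε i))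
  have hsum' : ContDiffAt ℝ 2 (fun z => ∑ i, (K i : ℝ) *
      (Real.log (r i (e.symm z)) - Real.log (r i (e.symm z) + ε))) (e x) :=
    ContDiffAt.sum hsum
  have hH1 : cHess (fun z => ∑ i, (K i : ℝ) * (Real.log (r i (e.symm z)) -
      Real.log (r i (e.symm z) + ε))) (e x) = -∑ i, ((K i : ℝ) : ℂ) • dF (r i) (R i) ε e (e x) := by
    rw [cHess_sum _ hsum, ← Finset.sum_neg_distrib]
    refine Finset.sum_congr rfl fun i _ => ?_
    rw [C2.cHess_const_mul _ ((hrl i).sub (hrε i)), C2.cHess_sub (hrl i) (hrε i),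
      cHess_log_r hBd hx i (hr i), ← smul_neg]
    congr 1
    simp only [dF]
    abel
  have htr1 : ((g e (e x))⁻¹ * (-∑ i, ((K i : ℝ) : ℂ) • dF (r i) (R i) ε e (e x))).trace.re =
      -∑ i, K i * trE g (dF (r i) (R i) ε) e (e x) := by
    rw [Matrix.mul_neg, Matrix.trace_neg, Complex.neg_re, Matrix.mul_sum, Matrix.trace_sum,
      Complex.re_sum]
    congr 1
    refine Finset.sum_congr rfl fun i _ => ?_
    rw [Matrix.mul_smul, Matrix.trace_smul, smul_eq_mul, Complex.re_ofReal_mul]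
    rfl
  by_cases hμ : μ = 0
  · refine ⟨fun h => absurd hμ h, ?_⟩
    have e2 : cHess (fun z => Real.log (f z)) (e x) = -L e (e x) +
        -∑ i, ((K i : ℝ) : ℂ) • dF (r i) (R i) ε e (e x) := by
      rw [C2.cHess_congr hlog, ← hH1]
      have e3 : (fun z => ((Real.log (‖c z‖ ^ 2) - Ψ z) +
          ∑ i, (K i : ℝ) * (Real.log (r i (e.symm z)) - Real.log (r i (e.symm z) + ε))) +
          (μ : ℝ) * Real.log (gramD (b z) (g e z))) = fun z => (Real.log (‖c z‖ ^ 2) - Ψ z) +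
          ∑ i, (K i : ℝ) * (Real.log (r i (e.symm z)) - Real.log (r i (e.symm z) + ε)) := by
        funext z
        rw [hμ]
        simp
      rw [e3, C2.cHess_add hcc2 hsum', hccH]
    rw [e2, Matrix.mul_add, Matrix.trace_add, Complex.add_re, htr1, htrL, hμ]
    simp only [Nat.cast_zero, zero_mul]
    linarith
  · have hG0 : gramD (b (e x)) (g e (e x)) ≠ 0 := by
      have := hfac.self_of_nhds.2.2.1
      intro h0
      rw [h0] at this
      exact this (zero_pow hμ)
    have hdet : (gm (b (e x)) (g e (e x))).det ≠ 0 := by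
      intro h0
      apply hG0
      show (gm (b (e x)) (g e (e x))).det.re = 0
      rw [h0, Complex.zero_re]
    refine ⟨fun _ => hdet, ?_⟩
    have hbC : C2.MC 2 b (e x) := fun j l =>
      (((hb j l).contDiffAt (n := ω)).restrict_scalars ℝ).of_le (by simp)
    have hGC : C2.MC 2 (g e) (e x) := IsHermitian.MC hg.toIsHermitian hx
    have hPC : C2.MC 2 (fun z => gm (b z) (g e z)) (e x) :=
      (hbC.mul (MC_dual hGC hgP.det_pos.ne')).mul hbC.conjTranspose
    have hPpos : (gm (b (e x)) (g e (e x))).PosDef := gm_posDef hgP hdet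
    have hPl : ContDiffAt ℝ 2 (fun z => Real.log (gramD (b z) (g e z))) (e x) := by
      have h1 : ContDiffAt ℝ 2 (fun z => (gm (b z) (g e z)).det.re) (e x) :=
        Complex.reCLM.contDiff.contDiffAt.comp (e x) hPC.det
      exact h1.log (C2.det_re_pos hPpos).ne'
    have hbh : HolNear b (e x) := holNear_of_analyticAt hb
    have hBo := bochner hGC (IsHermitian.ev_posDef hg.toIsHermitian hx) (IsKahler.ev_closed hg hx)
      hbC hbh hdet
    have e2 : cHess (fun z => Real.log (f z)) (e x) =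
        -L e (e x) + -∑ i, ((K i : ℝ) : ℂ) • dF (r i) (R i) ε e (e x) +
          ((μ : ℝ) : ℂ) • cHess (fun z => Real.log (gramD (b z) (g e z))) (e x) := by
      rw [C2.cHess_congr hlog, ← hH1, C2.cHess_add (hcc2.add hsum') (contDiffAt_const.mul hPl),
        C2.cHess_add hcc2 hsum', hccH, C2.cHess_const_mul _ hPl]
    rw [e2, Matrix.mul_add, Matrix.trace_add, Complex.add_re, Matrix.mul_add, Matrix.trace_add,
      Complex.add_re, htr1, htrL, Matrix.mul_smul, Matrix.trace_smul, smul_eq_mul,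
      Complex.re_ofReal_mul]
    have h5 : (μ : ℝ) * (trb (b (e x)) (g e (e x)) (D.ric g e (e x))).re ≤ μ *
        ((g e (e x))⁻¹ * cHess (fun z => Real.log (gramD (b z) (g e z))) (e x)).trace.re :=
      mul_le_mul_of_nonneg_left hBo (Nat.cast_nonneg μ)
    linarith

end loc

/-- **Block BK** of theorem KL. -/
theorem bochPartL (hBdP : BdPart) : BochPartL := by
  intro n M X _ _ _ _ _ _ χ hχ φ hφ m hm ρ hρ hρ0 Dv r R hBd dl hdl C hC hcurv p μ K hK L N₀ N₁ hdec
  obtain ⟨hrs, ⟨C₀, hC₀, hB⟩, -⟩ := hBdP n M X χ hχ Dv r R hBd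
  obtain ⟨𝒪, h𝒪, hgood⟩ := hdec.good
  have hr0 := r_nonneg hBd
  refine ⟨C₀, hC₀, fun a ha => ?_⟩
  obtain ⟨Ca, hCa⟩ := hgood a ha
  set Cb : ℝ := max Ca 0 with hCb
  have hCb0 : 0 ≤ Cb := le_max_right _ _
  have hCi : ∀ i, 0 ≤ μ * dl i * C₀ + K i * Cb := fun i =>
    add_nonneg (mul_nonneg (mul_nonneg (Nat.cast_nonneg _) (hdl i)) hC₀)
      (mul_nonneg (Nat.cast_nonneg _) hCb0)
  refine ⟨∑ i, (μ * dl i * C₀ + K i * Cb), Finset.sum_nonneg fun i _ => hCi i, ?_⟩
  intro β hβc hβ0 hβ1 δ ε hδ hε hε1 g c hg hvol N hN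
  have hgH := hg.toIsHermitian
  have hNs : SmoothFn (n := n) (N g) := by
    rcases hN with rfl | rfl
    · exact (hdec.smooth g hg).1
    · exact (hdec.smooth g hg).2
  have hN0 : ∀ x, 0 ≤ N g x := by
    intro x
    rcases hN with rfl | rfl
    · exact (hdec.nonneg g x hg).1
    · exact (hdec.nonneg g x hg).2
  set S : X → ℝ := fun x => N g x * ∏ i, (r i x + ε)⁻¹ ^ K i with hS
  have hrε : ∀ i x, 0 < r i x + ε := fun i x => by have := hr0 i x; linarith
  have hSs : SmoothFn (n := n) S := by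
    intro e x hx
    refine (hNs e x hx).mul (contDiffAt_prod fun i _ => ContDiffAt.pow (ContDiffAt.inv
      ((hrs i e x hx).add contDiffAt_const) ?_) _)
    exact (hrε i _).ne'
  have hS0 : ∀ x, 0 ≤ S x := fun x => mul_nonneg (hN0 x)
    (Finset.prod_nonneg fun i _ => pow_nonneg (inv_nonneg.2 (hrε i x).le) _)
  have hRc := hBd.closed
  have hcK : IsClosedForm (curvK φ m ρ δ dl R) := isClosed_curvK hφ hρ hρ0 hδ hRc
  have hcD : ∀ i, IsClosedForm (dF (r i) (R i) ε) := fun i =>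
    isClosed_dF (hrs i) (hr0 i) hε (hRc i)
  have hcχ : IsClosedForm χ := isClosedForm_of_kahler hχ
  have hρδ : ∀ x, 0 < ρ x + δ := fun x => by have := hρ0 x; linarith
  have hcρ : Continuous ρ := INT.SmoothFn.continuous hρ
  have hcr : ∀ i, Continuous (r i) := fun i => INT.SmoothFn.continuous (hrs i)
  set τ : X → ℝ := fun x => μ * (trX g (curvK φ m ρ δ dl R) x + C * (δ / (ρ x + δ)) *
      trX g χ x) + (∑ i, (μ * dl i * C₀ + K i * Cb)) * ∑ i, ε / (r i x + ε) * trX g χ x +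
      β x * (∑ i, if K i = 0 then 0 else K i * (trX g (dF (r i) (R i) ε) x + C₀ * trX g χ x)) +
      trX g L x
    with hτ
  have hτc : Continuous τ := by
    have k1 := cont_trX hgH hcK
    have k2 := cont_trX hgH hcχ
    have k3 : Continuous fun x => δ / (ρ x + δ) :=
      continuous_const.div (hcρ.add continuous_const) fun x => (hρδ x).ne'
    have k4 : Continuous fun x => ∑ i, ε / (r i x + ε) * trX g χ x :=
      continuous_finset_sum _ fun i _ => (continuous_const.div ((hcr i).add continuous_const)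
        fun x => (hrε i x).ne').mul k2
    have k5 : Continuous fun x => ∑ i, if K i = 0 then (0 : ℝ) else
        K i * (trX g (dF (r i) (R i) ε) x + C₀ * trX g χ x) := by
      refine continuous_finset_sum _ fun i _ => ?_
      by_cases hi : K i = 0
      · simp only [hi, if_true]
        exact continuous_const
      · simp only [hi, if_false]
        exact continuous_const.mul ((cont_trX hgH (hcD i)).add (continuous_const.mul k2))
    exact (((continuous_const.mul (k1.add ((continuous_const.mul k3).mul k2))).add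
      (continuous_const.mul k4)).add (hβc.mul k5)).add (cont_trX hgH hdec.closed)
  show BochF g τ S
  have hSc : Continuous S := INT.SmoothFn.continuous hSs
  have hgc : Continuous (gradX g S S) := INT.SmoothFn.continuous (smoothFn_gradX hgH hSs hSs)
  have hlc : Continuous (lapX g S) := INT.SmoothFn.continuous (smoothFn_lapX hgH hSs)
  have key : ∀ x ∈ 𝒪, gradX g S S x ≤ S x * lapX g S x + τ x * S x ^ 2 := by
    intro x hxO
    rcases (hS0 x).eq_or_lt with h0 | h0
    · rw [gradX_zero hgH hSs hS0 h0.symm, ← h0]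
      simp
    obtain ⟨hrp, e, b, c₀, c₁, Ψ, hx, hb, hc₀, hc₁, hΨ, hΨL, hloc, hq⟩ := hCa x hxO
    have hgP := hg.posDef e x hx
    have hχP := hχ.posDef e x hx
    -- the local form of `S`
    obtain ⟨cc, hcc, hlocS⟩ : ∃ cc : Cm n → ℂ, AnalyticAt ℂ cc (e x) ∧
        ∀ᶠ z in 𝓝 (e x), S (e.symm z) = ‖cc z‖ ^ 2 * Real.exp (-Ψ z) *
          (∏ i, r i (e.symm z) ^ K i) * gramD (b z) (g e z) ^ μ *
          ∏ i, (r i (e.symm z) + ε)⁻¹ ^ K i := by
      rcases hN with rfl | rfl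
      · refine ⟨c₀, hc₀, ?_⟩
        filter_upwards [hloc g hg] with z hz
        simp only [hS]
        rw [hz.1]
      · refine ⟨c₁, hc₁, ?_⟩
        filter_upwards [hloc g hg] with z hz
        simp only [hS]
        rw [hz.2]
    obtain ⟨hdet, hL⟩ := cHess_log_SL hBd hrs hx hrp hε hg hcc hb hΨ hΨL hSs h0 hlocS
    -- reduction to `Δ log S ≥ - τ`
    suffices hmain : -τ x ≤
        ((g e (e x))⁻¹ * cHess (fun z => Real.log (S (e.symm z))) (e x)).trace.re by
      have hsx : S (e.symm (e x)) = S x := by rw [hx.left_inv]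
      have h2 : ContDiffAt ℝ 2 (fun z => S (e.symm z)) (e x) := (hSs e x hx).of_le (by norm_cast)
      have e1 : cHess (fun z => Real.log (S (e.symm z))) (e x) =
          (((S x)⁻¹ : ℝ) : ℂ) • hess S e (e x) - (((S x ^ 2)⁻¹ : ℝ) : ℂ) • dd S S e (e x) := by
        ext k l
        rw [C2.cHess_log h2 (by rw [hsx]; exact h0) k l, hsx]
        simp only [Matrix.sub_apply, Matrix.smul_apply, smul_eq_mul, hess, dd, Matrix.of_apply]
        push_cast
        rfl
      have e2 : ((g e (e x))⁻¹ * cHess (fun z => Real.log (S (e.symm z))) (e x)).trace.re =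
          (S x)⁻¹ * lapX g S x - (S x ^ 2)⁻¹ * gradX g S S x := by
        rw [e1, lapX_eq hgH hSs hx, gradX_eq hgH hSs hSs hx, Matrix.mul_sub, Matrix.mul_smul,
          Matrix.mul_smul, Matrix.trace_sub, Matrix.trace_smul, Matrix.trace_smul, Complex.sub_re,
          smul_eq_mul, smul_eq_mul, Complex.re_ofReal_mul, Complex.re_ofReal_mul]
        rfl
      rw [e2] at hmain
      have e3 := mul_le_mul_of_nonneg_left hmain (by positivity : (0 : ℝ) ≤ S x ^ 2)
      have e4 : S x ^ 2 * ((S x)⁻¹ * lapX g S x - (S x ^ 2)⁻¹ * gradX g S S x) =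
          S x * lapX g S x - gradX g S S x := by
        field_simp
      rw [e4] at e3
      linarith
    -- values at `x` in the chart `e`
    have t1 : trX g χ x = T (g e (e x)) (χ e (e x)) := trX_eq hgH hcχ.form hx
    have t2 : trX g (curvK φ m ρ δ dl R) x = T (g e (e x)) (curvK φ m ρ δ dl R e (e x)) :=
      trX_eq hgH hcK.form hx
    have t4 : trX g L x = trE g L e (e x) := trX_eq hgH hdec.closed.form hx
    have t3 : ∀ i, trX g (dF (r i) (R i) ε) x = T (g e (e x)) (dF (r i) (R i) ε e (e x)) :=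
      fun i => trX_eq hgH (hcD i).form hx
    have hX0 : 0 ≤ T (g e (e x)) (χ e (e x)) := T_nonneg hgP hχP.posSemidef
    have hf0 : ∀ i, 0 ≤ ε / (r i x + ε) := fun i => div_nonneg hε.le (hrε i x).le
    have hf1 : ∀ i, ε / (r i x + ε) ≤ 1 := fun i => by
      rw [div_le_one (hrε i x)]
      linarith [hr0 i x]
    have hCle : ∑ i, (μ * dl i * C₀ + K i * Cb) * (ε / (r i x + ε) * T (g e (e x)) (χ e (e x))) ≤
        (∑ i, (μ * dl i * C₀ + K i * Cb)) * ∑ i, ε / (r i x + ε) * trX g χ x := by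
      rw [t1, Finset.sum_mul]
      refine Finset.sum_le_sum fun i _ => mul_le_mul_of_nonneg_left ?_ (hCi i)
      exact Finset.single_le_sum (f := fun i => ε / (r i x + ε) * T (g e (e x)) (χ e (e x)))
        (fun j _ => mul_nonneg (hf0 j) hX0) (Finset.mem_univ i)
    refine le_trans ?_ hL
    by_cases hμ : μ = 0
    · have hK0 : ∀ i, K i = 0 := by
        intro i
        have := hK i
        rw [hμ] at this
        simp only [Nat.cast_zero, zero_mul] at this
        exact_mod_cast le_antisymm this (Nat.cast_nonneg _)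
      have z1 : (μ : ℝ) * (trb (b (e x)) (g e (e x)) (D.ric g e (e x))).re -
          ∑ i, K i * trE g (dF (r i) (R i) ε) e (e x) - trE g L e (e x) = -trX g L x := by
        rw [hμ, t4]
        simp [hK0]
      rw [z1, hτ]
      have z2 : 0 ≤ (∑ i, (μ * dl i * C₀ + K i * Cb)) * ∑ i, ε / (r i x + ε) * trX g χ x := by
        refine mul_nonneg (Finset.sum_nonneg fun i _ => hCi i) (Finset.sum_nonneg fun i _ => ?_)
        rw [t1]
        exact mul_nonneg (hf0 i) hX0
      have z3 : ∑ i, (if K i = 0 then (0 : ℝ) else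
          K i * (trX g (dF (r i) (R i) ε) x + C₀ * trX g χ x)) = 0 := by
        refine Finset.sum_eq_zero fun i _ => ?_
        rw [if_pos (hK0 i)]
      simp only [z3, mul_zero, add_zero]
      rw [hμ] at z2 ⊢
      simp only [Nat.cast_zero, zero_mul, zero_add] at z2 ⊢
      linarith
    · have hdet' := hdet hμ
      -- the Ricci form
      have hric : D.ric g e (e x) = -curvK φ m ρ δ dl R e (e x) +
          ∑ i, ((dl i : ℝ) : ℂ) • dF (r i) (R i) ε e (e x) := by
        have e1 : (fun z => Real.log (g e z).det.re) =ᶠ[𝓝 (e x)]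
            fun z => (phiD φ m ρ δ e z - ∑ i, dl i * Real.log (r i (e.symm z) + ε)) + c := by
          filter_upwards [eventually_at hx] with z hz
          have := hvol e _ hz.1
          rw [hz.2] at this
          exact this
        have s1 : ContDiffAt ℝ 2 (phiD φ m ρ δ e) (e x) :=
          ((Vale.Agent.P281.H167.GM.isCanonical_phiD (m := m) hφ hρ hρ0 hδ).smooth e x hx).of_le
            (by norm_cast)
        have s2 : ∀ i, ContDiffAt ℝ 2 (fun z => Real.log (r i (e.symm z) + ε)) (e x) := fun i =>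
          (((hrs i e x hx).of_le (by norm_cast)).add contDiffAt_const).log (hrε i _).ne'
        have s3 : ∀ i ∈ (Finset.univ : Finset (Fin M)),
            ContDiffAt ℝ 2 (fun z => dl i * Real.log (r i (e.symm z) + ε)) (e x) := fun i _ =>
          contDiffAt_const.mul (s2 i)
        have s4 : ContDiffAt ℝ 2 (fun z => ∑ i, dl i * Real.log (r i (e.symm z) + ε)) (e x) :=
          ContDiffAt.sum s3
        show -cHess (fun z => Real.log (g e z).det.re) (e x) = _
        rw [C2.cHess_congr e1, C2.cHess_add (s1.sub s4) contDiffAt_const, C2.cHess_const, add_zero,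
          C2.cHess_sub s1 s4, cHess_sum _ s3]
        simp only [fun i => C2.cHess_const_mul (dl i) (s2 i), curvK, dF, smul_add,
          Finset.sum_add_distrib]
        abel
      have hpi := point_ineq (μ := μ) (f := fun i => ε / (r i x + ε)) (β := β x)
        (t := C * (δ / (ρ x + δ))) (C₀ := C₀) (Ca := Cb) (dl := dl) (K := K)
        (Θ := curvK φ m ρ δ dl R e (e x)) (Dm := fun i => dF (r i) (R i) ε e (e x))
        hgP hχP hdet' hK hC₀ hCb0 hf0 hf1
        (mul_nonneg hC (div_nonneg hδ.le (hρδ x).le)) (hβ0 x) (hcurv δ hδ e x hx)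
        (fun i => ((hB i e x hx).2.2 ε hε hε1).1)
        (by
          by_cases haa : a ≤ N₀ χ x + N₁ χ x
          · right
            intro i hi
            obtain ⟨l, hl⟩ := hq haa i hi
            exact ⟨xi (fun y => Real.log (r i y)) e (e x), l,
              ((hB i e x hx).2.2 ε hε hε1).2.2 (hrp i), hl.trans (le_max_left _ _)⟩
          · left
            exact hβ1 x (not_le.1 haa))
      rw [hric]
      refine le_trans ?_ (sub_le_sub_right hpi (trE g L e (e x)))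
      simp only [hτ, t1, t2, t3, t4] at hCle ⊢
      linarith
  intro x
  have hx : x ∈ closure 𝒪 := h𝒪 x
  have hcl : IsClosed {x | gradX g S S x ≤ S x * lapX g S x + τ x * S x ^ 2} :=
    isClosed_le hgc ((hSc.mul hlc).add (hτc.mul (hSc.pow 2)))
  exact closure_minimal (fun y hy => key y hy) hcl hx

/-- `IsDecPair` is the case `Ψ = 0`, `L = 0` -/
theorem isDecPairL_of {n M : ℕ} {X : Type} [TopologicalSpace X] [ChartedSpace (Cm n) X]
    {Dv : Fin M → Set X} {r : Fin M → X → ℝ} {χ : D.FormM n X} {p μ : ℕ}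
    {K : Fin M → ℕ} {N₀ N₁ : D.FormM n X → X → ℝ} (h : IsDecPair Dv r χ p μ K N₀ N₁) :
    IsDecPairL Dv r χ p μ K (fun _ _ => 0) N₀ N₁ where
  closed := by
    refine ⟨fun e x _ i j => by simpa using contDiffAt_const, fun e e' x _ _ => by simp,
      fun e x _ i k l => ?_⟩
    simp only [Matrix.zero_apply]
    rw [C2.dz_const, C2.dz_const]
  smooth := h.smooth
  nonneg := h.nonneg
  pos := h.pos
  hol := h.hol
  ne := h.ne
  good := by
    obtain ⟨𝒪, h𝒪, hg⟩ := h.good
    refine ⟨𝒪, h𝒪, fun a ha => ?_⟩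
    obtain ⟨C, hC⟩ := hg a ha
    refine ⟨C, fun x hx => ?_⟩
    obtain ⟨h1, e, b, c₀, c₁, h2, h3, h4, h5, h6, h7⟩ := hC x hx
    refine ⟨h1, e, b, c₀, c₁, fun _ => 0, h2, h3, h4, h5, contDiffAt_const, C2.cHess_const 0,
      fun g hg => ?_, h7⟩
    filter_upwards [h6 g hg] with z hz
    simpa using hz

end Vale.Agent.P281.H723.KL
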