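import Vale.Agent.P281.H716.KL.Iface
import Vale.Agent.P281.H723.KL.BK

/-! P281, theorem KL: block BL in the form of `H716/KL/Iface.lean`. -/

open scoped Manifold ContDiff ComplexOrder Topology Matrix
open Filter Vale.Agent.P272.K Vale.Agent.P272.K.AMP Vale.Agent.P299
open Vale.Agent.P299.H882 (J xi qf)
open Vale.Agent.P272.K.INT (IsClosedForm)

set_option linter.all false

noncomputable section

namespace Vale.Agent.P281.H723.KL.BL

open Vale.Agent.P281.H713.KD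

/-- **Block BL**. -/
theorem bochPartL (hB : BdPart) : Vale.Agent.P281.H716.KL.BochPartL := by
  intro n M X _ _ _ _ _ _ χ hχ φ hφ m hm ρ hρ hρ0 Dv r R hBd dl hdl C hC hcurv p μ K hK L hL N₀ N₁
    hdec
  have hdec' : Vale.Agent.P281.H723.KL.IsDecPairL Dv r χ p μ K L N₀ N₁ :=
    ⟨hL, hdec.smooth, hdec.nonneg, hdec.pos, hdec.hol, hdec.ne, hdec.good⟩
  obtain ⟨C₂, hC₂, h⟩ := Vale.Agent.P281.H723.KL.bochPartL hB n M X χ hχ φ hφ m hm ρ hρ hρ0 Dv r R
    hBd dl hdl C hC hcurv p μ K hK L N₀ N₁ hdec'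
  refine ⟨C₂, hC₂, fun a ha => ?_⟩
  obtain ⟨C', hC', h'⟩ := h a ha
  refine ⟨C', hC', fun β hβc hβ0 hβ1 δ ε hδ hε hε1 g c hg hvol N hN x => ?_⟩
  have h1 := h' β hβc hβ0 hβ1 δ ε hδ hε hε1 g c hg hvol N hN x
  refine h1.trans (le_of_eq ?_)
  simp only
  ring

end Vale.Agent.P281.H723.KL.BL
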